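import Claimed.Agent.R282.Top.Defs

/-!
# Row 282: top level, elementary leaves (weight arithmetic in doubled coordinates, padding)

All statements are elementary; no paper reading is needed.  Conventions: `Def_0456` (doubled weights),
`Top/Defs.lean`, `K2/Iface.lean` (`simpleRootD`, `cutBd`, `cutDim`), `Defs/Basic.lean` (schedules).
-/

set_option autoImplicit false

open Claims Claims.C0456

namespace Claimed.Agent.R282

variable {n : ℕ}

/-! ## L-TOP-1: duals, multiples, lattices -/

theorem top_dual_smul (N : ℕ) (K : Fin n → ℤ) : dualWeightD (N • K) = N • dualWeightD K := by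
  unfold dualWeightD
  split_ifs with h
  · rfl
  · funext i
    simp only [Pi.smul_apply]
    split_ifs <;> simp

theorem top_dual_dom (K : Fin n → ℤ) (hK : IsDominantWeight2 K) :
    IsDominantWeight2 (dualWeightD K) := by
  unfold dualWeightD
  split_ifs with h
  · exact hK
  · obtain ⟨h1, h2⟩ := hK
    refine ⟨fun i j => ?_, fun i j hij => ?_⟩
    · have := h1 i j
      have e1 : Even (2 * K i) := even_two_mul _
      have e2 : Even (2 * K j) := even_two_mul _
      show Even ((if (i : ℕ) + 1 = n then -K i else K i) - (if (j : ℕ) + 1 = n then -K j else K j))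
      split_ifs
      · have : -K i - -K j = -(K i - K j) := by ring
        rw [this]
        exact (h1 i j).neg
      · have : -K i - K j = (K i - K j) - 2 * K i := by ring
        rw [this]
        exact (h1 i j).sub e1
      · have : K i - -K j = (K i - K j) + 2 * K j := by ring
        rw [this]
        exact (h1 i j).add e2
      · exact h1 i j
    · have hi : ¬ ((i : ℕ) + 1 = n) := by
        have h3 : (i : ℕ) < j := hij
        have h4 := j.2
        omega
      show |if (j : ℕ) + 1 = n then -K j else K j| ≤ (if (i : ℕ) + 1 = n then -K i else K i)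
      rw [if_neg hi]
      split_ifs
      · rw [abs_neg]
        exact h2 i j hij
      · exact h2 i j hij

theorem top_smul_dom (N : ℕ) (L : Fin n → ℤ) (hL : IsDominantWeight2 L) :
    IsDominantWeight2 (N • L) := by
  obtain ⟨h1, h2⟩ := hL
  refine ⟨fun i j => ?_, fun i j hij => ?_⟩
  · have : (N • L) i - (N • L) j = (N : ℤ) * (L i - L j) := by
      simp only [Pi.smul_apply, nsmul_eq_mul]
      ring
    rw [this]
    exact (h1 i j).mul_left _
  · simp only [Pi.smul_apply, nsmul_eq_mul]
    rw [abs_mul, abs_of_nonneg (Int.natCast_nonneg N)]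
    exact mul_le_mul_of_nonneg_left (h2 i j hij) (Int.natCast_nonneg N)

theorem top_half_wt (L : Fin n → ℤ) (hL : IsDominantWeight2 L) : IsWtD (half L) := by
  obtain ⟨h1, -⟩ := hL
  by_cases hall : ∀ i, Even (L i)
  · left
    intro i
    obtain ⟨z, hz⟩ := hall i
    refine ⟨z, ?_⟩
    unfold half
    rw [hz]
    push_cast
    ring
  · right
    push Not at hall
    obtain ⟨i₀, hi₀⟩ := hall
    intro i
    have hodd : Odd (L i) := by
      rw [← Int.not_even_iff_odd]
      intro he
      apply hi₀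
      have := he.sub (h1 i i₀)
      simpa using this
    obtain ⟨z, hz⟩ := hodd
    refine ⟨z, ?_⟩
    unfold half
    rw [hz]
    push_cast
    ring

theorem top_half_dom (L : Fin n → ℤ) (hL : IsDominantWeight2 L) : Dom (half L) := by
  intro i j hij
  have h := hL.2 i j hij
  unfold half
  rw [abs_div, abs_of_pos (by norm_num : (0 : ℝ) < 2)]
  have h' : |(L j : ℝ)| ≤ (L i : ℝ) := by exact_mod_cast h
  linarith

theorem top1_even_sum (K : Fin n → ℤ) (h : ∀ i j : Fin n, Even (K i - K j)) (S : Finset (Fin n))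
    (hS : Even S.card) : Even (∑ i ∈ S, K i) := by
  rcases S.eq_empty_or_nonempty with rfl | ⟨i₀, -⟩
  · simp
  · have e : ∑ i ∈ S, K i = ∑ i ∈ S, (K i - K i₀) + S.card * K i₀ := by
      rw [Finset.sum_sub_distrib, Finset.sum_const, nsmul_eq_mul]
      ring
    rw [e]
    refine Even.add (Finset.even_sum _ fun i _ => h i i₀) ?_
    exact Even.mul_right (by exact_mod_cast hS) _

theorem top_half_Q (L M K : Fin n → ℤ) (hK : IsDominantWeight2 K)
    (hQ : SumInRootLatticeD L M K) : InQD (half L + half M - half (dualWeightD K)) := by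
  obtain ⟨h1, a, ha⟩ := hQ
  -- the coefficient of `K i` in `(K + K')/2`
  have hKK : ∀ i, K i + dualWeightD K i = 2 * (if (¬ Even n ∧ (i : ℕ) + 1 = n) then 0 else K i) := by
    intro i
    by_cases hn : Even n
    · have e1 : dualWeightD K = K := by
        unfold dualWeightD
        rw [if_pos hn]
      rw [e1, if_neg (by simp [hn])]
      ring
    · have e1 : dualWeightD K i = if (i : ℕ) + 1 = n then -K i else K i := by
        unfold dualWeightD
        rw [if_neg hn]
      rw [e1]
      by_cases hi : (i : ℕ) + 1 = n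
      · rw [if_pos hi, if_pos ⟨hn, hi⟩]
        ring
      · rw [if_neg hi, if_neg (by simp [hi])]
        ring
  have hcard : Even (Finset.univ.filter fun i : Fin n => ¬ (¬ Even n ∧ (i : ℕ) + 1 = n)).card := by
    by_cases hn : Even n
    · have : (Finset.univ.filter fun i : Fin n => ¬ (¬ Even n ∧ (i : ℕ) + 1 = n)) = Finset.univ := by
        refine Finset.filter_true_of_mem fun i _ => ?_
        simp [hn]
      rw [this, Finset.card_univ, Fintype.card_fin]
      exact hn
    · have hodd : Odd n := Nat.not_even_iff_odd.1 hn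
      have hpos : 0 < n := hodd.pos
      have h2 : (Finset.univ.filter fun i : Fin n => (¬ Even n ∧ (i : ℕ) + 1 = n))
          = {⟨n - 1, by omega⟩} := by
        ext i
        simp only [Finset.mem_filter, Finset.mem_univ, true_and, Finset.mem_singleton, hn,
          not_false_eq_true, Fin.ext_iff]
        omega
      have h3 := Finset.card_filter_add_card_filter_not (s := (Finset.univ : Finset (Fin n)))
        (fun i : Fin n => (¬ Even n ∧ (i : ℕ) + 1 = n))
      rw [h2, Finset.card_singleton, Finset.card_univ, Fintype.card_fin] at h3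
      obtain ⟨m, hm⟩ := hodd
      exact ⟨m, by omega⟩
  obtain ⟨b, hb⟩ := top1_even_sum K hK.1 _ hcard
  rw [Finset.sum_filter] at hb
  have hsumK : ∑ i, (K i + dualWeightD K i) = 4 * b := by
    rw [Finset.sum_congr rfl fun i _ => hKK i, ← Finset.mul_sum]
    have : ∑ i : Fin n, (if (¬ Even n ∧ (i : ℕ) + 1 = n) then 0 else K i)
        = ∑ i : Fin n, (if ¬ (¬ Even n ∧ (i : ℕ) + 1 = n) then K i else 0) :=
      Finset.sum_congr rfl fun i _ => by split_ifs <;> rfl
    rw [this, hb]
    ring
  refine ⟨fun i => ?_, ?_⟩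
  · obtain ⟨z, hz⟩ := h1 i
    refine ⟨z - (if (¬ Even n ∧ (i : ℕ) + 1 = n) then 0 else K i), ?_⟩
    have e : (dualWeightD K i : ℝ) = 2 * ((if (¬ Even n ∧ (i : ℕ) + 1 = n) then 0 else K i : ℤ) : ℝ) - K i := by
      have := hKK i
      have h' : (K i : ℝ) + (dualWeightD K i : ℝ)
          = 2 * ((if (¬ Even n ∧ (i : ℕ) + 1 = n) then 0 else K i : ℤ) : ℝ) := by exact_mod_cast this
      linarith
    have hz' : (L i : ℝ) + M i + K i = z + z := by exact_mod_cast hz
    simp only [Pi.add_apply, Pi.sub_apply, half]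
    rw [e]
    push_cast
    linarith
  · refine ⟨a - b, ?_⟩
    have e : ∑ i, (half L + half M - half (dualWeightD K)) i
        = ((∑ i, (L i + M i + K i) : ℤ) : ℝ) / 2 - ((∑ i, (K i + dualWeightD K i) : ℤ) : ℝ) / 2 := by
      push_cast
      rw [Finset.sum_div, Finset.sum_div, ← Finset.sum_sub_distrib]
      refine Finset.sum_congr rfl fun i _ => ?_
      simp only [Pi.add_apply, Pi.sub_apply, half]
      ring
    rw [e, ha, hsumK]
    push_cast
    ring

theorem top_Q_swap12 (L M K : Fin n → ℤ) (hQ : SumInRootLatticeD L M K) :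
    SumInRootLatticeD M L K := by
  obtain ⟨h1, h2⟩ := hQ
  refine ⟨fun i => ?_, ?_⟩
  · have := h1 i
    rwa [add_comm (L i) (M i)] at this
  · have e : ∑ i, (M i + L i + K i) = ∑ i, (L i + M i + K i) :=
      Finset.sum_congr rfl fun i _ => by ring
    rw [e]
    exact h2

theorem top_Q_swap23 (L M K : Fin n → ℤ) (hQ : SumInRootLatticeD L M K) :
    SumInRootLatticeD L K M := by
  obtain ⟨h1, h2⟩ := hQ
  refine ⟨fun i => ?_, ?_⟩
  · have := h1 i
    rwa [add_right_comm] at this
  · have e : ∑ i, (L i + K i + M i) = ∑ i, (L i + M i + K i) :=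
      Finset.sum_congr rfl fun i _ => by ring
    rw [e]
    exact h2

theorem top_nZero_half (M : Fin n → ℤ) :
    (Finset.univ.filter fun i => half M i = 0).card = nZero M := by
  unfold nZero
  congr 1
  refine Finset.filter_congr fun i _ => ?_
  unfold half
  constructor
  · intro h
    have : (M i : ℝ) = 0 := by linarith
    exact_mod_cast this
  · intro h
    rw [h]
    simp

theorem top_nZero_add (M : Fin n → ℤ) : nZero M + suppLen M = n := by
  unfold nZero suppLen
  rw [Finset.card_filter_add_card_filter_not, Finset.card_univ, Fintype.card_fin]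

/-! ## L-TOP-2: fundamental columns -/

theorem top_fund_dom (hn : 2 ≤ n) (k : Fin n) : Dom (fundV n k) := by
  intro i j hij
  have hij' : (i : ℕ) < j := hij
  have hj := j.2
  unfold fundV
  by_cases h1 : (k : ℕ) + 2 < n
  · simp only [if_pos h1]
    by_cases hjk : (j : ℕ) ≤ k
    · rw [if_pos hjk, if_pos (by omega)]
      simp
    · rw [if_neg hjk, abs_zero]
      split_ifs <;> norm_num
  · simp only [if_neg h1]
    by_cases h2 : (k : ℕ) + 2 = n
    · simp only [if_pos h2]
      rw [if_neg (by omega : ¬ (i : ℕ) + 1 = n)]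
      split_ifs
      · rw [abs_of_neg (by norm_num)]
        norm_num
      · rw [abs_of_pos (by norm_num)]
    · simp only [if_neg h2]
      rw [abs_of_pos (by norm_num)]

theorem top2_flat (f : Fin n → ℕ) (v : Fin n → Vec n) (l : List (Fin n)) :
    ((l.flatMap fun i => List.replicate (f i) i).map v).sum = (l.map fun i => f i • v i).sum := by
  induction l with
  | nil => simp
  | cons a l ih =>
    rw [List.flatMap_cons, List.map_append, List.sum_append, ih, List.map_cons, List.sum_cons,
      List.map_replicate, List.sum_replicate]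

theorem top2_tele (G : ℕ → ℝ) (c m : ℕ) :
    ∑ k ∈ Finset.range m, (if c ≤ k then G k - G (k + 1) else 0) = if c ≤ m then G c - G m else 0 := by
  induction m with
  | zero =>
    by_cases h : c ≤ 0
    · have : c = 0 := by omega
      subst this
      simp
    · simp [h]
  | succ m ih =>
    rw [Finset.sum_range_succ, ih]
    by_cases h1 : c ≤ m
    · rw [if_pos h1, if_pos h1, if_pos (by omega)]
      ring
    · rw [if_neg h1, if_neg h1]
      by_cases h2 : c ≤ m + 1
      · have : c = m + 1 := by omega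
        subst this
        simp
      · rw [if_neg h2]
        simp

theorem top2_single (M : Fin n → ℤ) (c : ℕ) (hc : c < n) :
    ∑ k : Fin n, M k * (if (k : ℕ) = c then 1 else 0) = M ⟨c, hc⟩ := by
  rw [Finset.sum_eq_single ⟨c, hc⟩]
  · simp
  · intro b _ hb
    rw [if_neg (fun h => hb (Fin.ext h)), mul_zero]
  · intro h
    exact absurd (Finset.mem_univ _) h

theorem top2_toNat (z : ℤ) (he : Even z) (h0 : 0 ≤ z) : (((z / 2).toNat : ℕ) : ℝ) = (z : ℝ) / 2 := by
  obtain ⟨w, rfl⟩ := he
  have h1 : (w + w) / 2 = w := by omega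
  have h2 : 0 ≤ w := by omega
  rw [h1]
  have h3 : ((w.toNat : ℕ) : ℤ) = w := Int.toNat_of_nonneg h2
  have h4 : ((w.toNat : ℕ) : ℝ) = (w : ℝ) := by exact_mod_cast h3
  rw [h4]
  push_cast
  ring

theorem top2_pair1 (M : Fin n → ℤ) (hM : IsDominantWeight2 M) (k : Fin n) (hk : (k : ℕ) + 1 < n) :
    (pairD n M k : ℝ) = ((M k : ℝ) - (M ⟨k + 1, hk⟩ : ℝ)) / 2 := by
  have e : ∑ j, M j * simpleRootD n k j = M k - M ⟨k + 1, hk⟩ := by
    have e1 : ∀ j : Fin n, M j * simpleRootD n k j
        = M j * (if (j : ℕ) = k then 1 else 0) - M j * (if (j : ℕ) = k + 1 then 1 else 0) := by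
      intro j
      unfold simpleRootD
      rw [if_pos hk, mul_sub]
      congr 2
      simp only [Fin.ext_iff]
    rw [Finset.sum_congr rfl fun j _ => e1 j, Finset.sum_sub_distrib, top2_single M k k.2,
      top2_single M (k + 1) hk]
  have hlt : k < (⟨k + 1, hk⟩ : Fin n) := by
    rw [Fin.lt_def]
    simp
  have h0 : 0 ≤ M k - M ⟨k + 1, hk⟩ := by
    have := hM.2 k ⟨k + 1, hk⟩ hlt
    have := le_abs_self (M ⟨k + 1, hk⟩)
    linarith
  unfold pairD
  rw [e, top2_toNat _ (hM.1 _ _) h0]
  push_cast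
  ring

theorem top2_pair2 {m : ℕ} (M : Fin (m + 2) → ℤ) (hM : IsDominantWeight2 M) :
    (pairD (m + 2) M (Fin.last (m + 1)) : ℝ)
      = ((M ⟨m, by omega⟩ : ℝ) + (M ⟨m + 1, by omega⟩ : ℝ)) / 2 := by
  have e : ∑ j, M j * simpleRootD (m + 2) (Fin.last (m + 1)) j = M ⟨m, by omega⟩ + M ⟨m + 1, by omega⟩ := by
    have e1 : ∀ j : Fin (m + 2), M j * simpleRootD (m + 2) (Fin.last (m + 1)) j
        = M j * (if (j : ℕ) = m then 1 else 0) + M j * (if (j : ℕ) = m + 1 then 1 else 0) := by
      intro j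
      unfold simpleRootD
      rw [if_neg (by simp), mul_add]
      congr 2
      · simp
      · simp
    rw [Finset.sum_congr rfl fun j _ => e1 j, Finset.sum_add_distrib, top2_single M m (by omega),
      top2_single M (m + 1) (by omega)]
  have hlt : (⟨m, by omega⟩ : Fin (m + 2)) < ⟨m + 1, by omega⟩ := by
    rw [Fin.lt_def]
    simp
  have h0 : 0 ≤ M ⟨m, by omega⟩ + M ⟨m + 1, by omega⟩ := by
    have := hM.2 _ _ hlt
    have := neg_abs_le (M ⟨m + 1, by omega⟩)
    linarith
  have he : Even (M ⟨m, by omega⟩ + M ⟨m + 1, by omega⟩) := by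
    have : M ⟨m, by omega⟩ + M ⟨m + 1, by omega⟩
        = (M ⟨m, by omega⟩ - M ⟨m + 1, by omega⟩) + 2 * M ⟨m + 1, by omega⟩ := by ring
    rw [this]
    exact (hM.1 _ _).add (even_two_mul _)
  unfold pairD
  rw [e, top2_toNat _ he h0]
  push_cast
  ring

theorem top_cols_sum (hn : 2 ≤ n) (M : Fin n → ℤ) (hM : IsDominantWeight2 M) :
    ((colsOf n M).map (fundV n)).sum = half M := by
  obtain ⟨m, rfl⟩ : ∃ m, n = m + 2 := ⟨n - 2, by omega⟩
  rw [colsOf, top2_flat, ← Fin.sum_univ_def]
  funext c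
  rw [Finset.sum_apply]
  simp only [Pi.smul_apply, nsmul_eq_mul]
  set G : ℕ → ℝ := fun j => if h : j < m + 2 then (M ⟨j, h⟩ : ℝ) else 0 with hGdef
  have hG : ∀ (j : ℕ) (h : j < m + 2), G j = (M ⟨j, h⟩ : ℝ) := by
    intro j h
    simp only [hGdef, dif_pos h]
  have hp1 : ∀ k : Fin (m + 2), (k : ℕ) + 1 < m + 2 →
      (pairD (m + 2) M k : ℝ) = (G k - G (k + 1)) / 2 := by
    intro k hk
    rw [top2_pair1 M hM k hk, hG _ k.2, hG _ hk]
  have hp2 : (pairD (m + 2) M (Fin.last (m + 1)) : ℝ) = (G m + G (m + 1)) / 2 := by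
    rw [top2_pair2 M hM, hG m (by omega), hG (m + 1) (by omega)]
  rw [Fin.sum_univ_castSucc, Fin.sum_univ_castSucc]
  have hc := c.2
  have e1 : ∀ i : Fin m, (pairD (m + 2) M i.castSucc.castSucc : ℝ) * fundV (m + 2) i.castSucc.castSucc c
      = (fun k : ℕ => if (c : ℕ) ≤ k then G k / 2 - G (k + 1) / 2 else 0) i := by
    intro i
    have hi := i.2
    rw [hp1 _ (by simp only [Fin.val_castSucc]; omega)]
    unfold fundV
    simp only [Fin.val_castSucc]
    rw [if_pos (by omega)]
    split_ifs <;> ring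
  rw [Finset.sum_congr rfl fun i _ => e1 i,
    Fin.sum_univ_eq_sum_range (fun k : ℕ => if (c : ℕ) ≤ k then G k / 2 - G (k + 1) / 2 else 0) m,
    top2_tele (fun k => G k / 2),
    hp1 _ (by simp), hp2]
  unfold fundV half
  simp only [Fin.val_castSucc, Fin.val_last]
  rw [if_neg (by omega : ¬ m + 2 < m + 2), if_neg (by omega : ¬ m + 1 + 2 < m + 2),
    if_neg (by omega : ¬ m + 1 + 2 = m + 2), ← hG c c.2]
  simp only [if_true]
  by_cases hcm : (c : ℕ) ≤ m
  · rw [if_pos hcm, if_neg (by omega)]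
    ring
  · have : (c : ℕ) = m + 1 := by omega
    rw [if_neg hcm, if_pos (by omega), this]
    ring

theorem top_cols_ne (hn : 2 ≤ n) (M : Fin n → ℤ) (hM : IsDominantWeight2 M) (h0 : M ≠ 0) :
    colsOf n M ≠ [] := by
  intro h
  have h1 := top_cols_sum hn M hM
  rw [h] at h1
  apply h0
  funext i
  have h2 := congrFun h1 i
  simp only [List.map_nil, List.sum_nil, Pi.zero_apply, half] at h2
  have : (M i : ℝ) = 0 := by linarith
  exact_mod_cast this

/-- the trivial schedule -/
theorem top_sched_zero : HasIntSchedule (0 : Vec n) [] 0 := by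
  refine ⟨⟨1, fun _ => false, by simp⟩, [], ⟨?_, ?_, ?_, ?_⟩, ?_⟩
  · intro p hp
    simp at hp
  · exact List.Pairwise.nil
  · trivial
  · refine ⟨⟨1, fun _ => false, by simp⟩, ?_⟩
    funext i
    simp [runSw, SwState.pos, Shape.val, WD.act]
  · trivial

/-! ## L-TOP-3: weights with at least two zero coordinates -/

theorem top3_zero_up (L : Fin n → ℤ) (hL : IsDominantWeight2 L) {i j : Fin n} (hij : i ≤ j)
    (h : L i = 0) : L j = 0 := by
  rcases hij.eq_or_lt with rfl | hlt
  · exact h
  · have := hL.2 i j hlt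
    rw [h] at this
    exact abs_eq_zero.1 (le_antisymm this (abs_nonneg _))

theorem top3_exists_zero (L : Fin n → ℤ) (hz : 2 ≤ nZero L) : ∃ i, L i = 0 := by
  unfold nZero at hz
  have hpos : 0 < (Finset.univ.filter fun i => L i = 0).card := by omega
  obtain ⟨i, hi⟩ := Finset.card_pos.1 hpos
  exact ⟨i, (Finset.mem_filter.1 hi).2⟩

theorem top_tail_supp (L : Fin n → ℤ) (hL : IsDominantWeight2 L) (hz : 2 ≤ nZero L) (i : Fin n) :
    L i ≠ 0 ↔ (i : ℕ) < suppLen L := by
  unfold suppLen
  constructor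
  · intro hi
    have hsub : Finset.Iic i ⊆ Finset.univ.filter fun i => L i ≠ 0 := by
      intro j hj
      rw [Finset.mem_filter]
      exact ⟨Finset.mem_univ _, fun h0 => hi (top3_zero_up L hL (Finset.mem_Iic.1 hj) h0)⟩
    have := Finset.card_le_card hsub
    rw [Fin.card_Iic] at this
    omega
  · intro hi h0
    have hsub : (Finset.univ.filter fun i => L i ≠ 0) ⊆ Finset.Iio i := by
      intro j hj
      rw [Finset.mem_Iio]
      by_contra hji
      exact (Finset.mem_filter.1 hj).2 (top3_zero_up L hL (not_lt.1 hji) h0)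
    have := Finset.card_le_card hsub
    rw [Fin.card_Iio] at this
    omega

theorem top_tail_nonneg (L : Fin n → ℤ) (hL : IsDominantWeight2 L) (hz : 2 ≤ nZero L) (i : Fin n) :
    0 ≤ L i ∧ Even (L i) := by
  obtain ⟨i₀, h0⟩ := top3_exists_zero L hz
  refine ⟨?_, ?_⟩
  · rcases lt_or_ge i i₀ with h | h
    · exact (abs_nonneg _).trans (hL.2 i i₀ h)
    · exact (top3_zero_up L hL h h0).ge
  · have := hL.1 i i₀
    rwa [h0, sub_zero] at this

theorem top_tail_dual (L : Fin n → ℤ) (hL : IsDominantWeight2 L) (hz : 2 ≤ nZero L) :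
    dualWeightD L = L := by
  obtain ⟨i₀, h0⟩ := top3_exists_zero L hz
  unfold dualWeightD
  split_ifs with hn
  · rfl
  · funext i
    split_ifs with hi
    · have hle : i₀ ≤ i := by
        rw [Fin.le_def]
        have := i₀.2
        omega
      rw [top3_zero_up L hL hle h0, neg_zero]
    · rfl

/-! ## L-TOP-4: truncation.  `r` = a bound for the support, `1 ≤ r`, `r + 2 ≤ n`. -/

theorem top4_sum_castLE {A : Type*} [AddCommMonoid A] {m : ℕ} (h : m ≤ n) (f : Fin n → A)
    (hf : ∀ i : Fin n, m ≤ (i : ℕ) → f i = 0) : ∑ i : Fin m, f (Fin.castLE h i) = ∑ i, f i := by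
  have e : ∑ i : Fin m, f (Fin.castLE h i) = ∑ j ∈ Finset.univ.map (Fin.castLEEmb h), f j := by
    rw [Finset.sum_map]
    rfl
  rw [e]
  refine Finset.sum_subset (Finset.subset_univ _) fun j _ hj => hf j ?_
  by_contra hlt
  apply hj
  rw [Finset.mem_map]
  exact ⟨⟨j, by omega⟩, Finset.mem_univ _, Fin.ext rfl⟩

/-- extension by zero to all natural indices -/
def top4E (c : Fin n → ℤ) (j : ℕ) : ℤ := if h : j < n then c ⟨j, h⟩ else 0

theorem top4E_val (c : Fin n → ℤ) (i : Fin n) : top4E c i = c i := by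
  unfold top4E
  rw [dif_pos i.2]

theorem top4E_mk (c : Fin n → ℤ) {j : ℕ} (h : j < n) : top4E c j = c ⟨j, h⟩ := by
  unfold top4E
  rw [dif_pos h]

theorem top4_sum_succ_eq (N k : ℕ) (hk : k ≤ N) (b : ℤ) :
    ∑ j ∈ Finset.range N, (if j + 1 = k then b else 0) = if 1 ≤ k then b else 0 := by
  by_cases h1 : 1 ≤ k
  · rw [if_pos h1]
    have e : ∀ j ∈ Finset.range N, (if j + 1 = k then b else 0) = if j = k - 1 then b else 0 := by
      intro j _
      by_cases hj : j + 1 = k
      · rw [if_pos hj, if_pos (by omega)]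
      · rw [if_neg hj, if_neg (by omega)]
    rw [Finset.sum_congr rfl e, Finset.sum_ite_eq', if_pos (Finset.mem_range.2 (by omega))]
  · rw [if_neg h1]
    refine Finset.sum_eq_zero fun j _ => ?_
    rw [if_neg (by omega)]

/-- coordinates of `∑ c_i α_i` -/
theorem top4_coef (c : Fin n → ℤ) (k : Fin n) :
    ∑ i, c i * simpleRootD n i k
      = (if (k : ℕ) + 1 < n then top4E c k else 0) - (if 1 ≤ (k : ℕ) then top4E c (k - 1) else 0)
        + (if (k : ℕ) + 2 = n ∨ (k : ℕ) + 1 = n then top4E c (n - 1) else 0) := by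
  have hk := k.2
  have e1 : ∀ i : Fin n, c i * simpleRootD n i k
      = (fun j : ℕ => (if j = (k : ℕ) then (if (k : ℕ) + 1 < n then top4E c k else 0) else 0)
          - (if j + 1 = (k : ℕ) then top4E c (k - 1) else 0)
          + (if j + 1 = n then (if (k : ℕ) + 2 = n ∨ (k : ℕ) + 1 = n then top4E c (n - 1) else 0)
              else 0)) (i : ℕ) := by
    intro i
    have hi := i.2
    rw [← top4E_val c i]
    unfold simpleRootD
    simp only [Fin.ext_iff]
    by_cases h1 : (i : ℕ) + 1 < n
    · rw [if_pos h1, if_neg (show ¬ (i : ℕ) + 1 = n by omega), add_zero]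
      by_cases h2 : (i : ℕ) = k
      · rw [if_pos h2.symm, if_neg (show ¬ (k : ℕ) = i + 1 by omega), if_pos h2,
          if_pos (show (k : ℕ) + 1 < n by omega), if_neg (show ¬ (i : ℕ) + 1 = k by omega), h2]
        ring
      · rw [if_neg (fun h => h2 h.symm), if_neg h2]
        by_cases h3 : (i : ℕ) + 1 = k
        · rw [if_pos h3.symm, if_pos h3, show (k : ℕ) - 1 = i by omega]
          ring
        · rw [if_neg (fun h => h3 h.symm), if_neg h3]
          ring
    · have h1' : (i : ℕ) + 1 = n := by omega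
      rw [if_neg h1, if_pos h1', if_neg (show ¬ (i : ℕ) + 1 = k by omega),
        show n - 1 = (i : ℕ) by omega]
      have h4 : (if (i : ℕ) = k then (if (k : ℕ) + 1 < n then top4E c k else 0) else 0) = 0 := by
        by_cases h2 : (i : ℕ) = k
        · rw [if_pos h2, if_neg (by omega)]
        · rw [if_neg h2]
      rw [h4]
      by_cases h5 : (k : ℕ) + 2 = n
      · rw [if_pos h5, if_neg (show ¬ (k : ℕ) + 1 = n by omega), if_pos (Or.inl h5)]
        ring
      · rw [if_neg h5]
        by_cases h6 : (k : ℕ) + 1 = n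
        · rw [if_pos h6, if_pos (Or.inr h6)]
          ring
        · rw [if_neg h6, if_neg (by tauto)]
          ring
  rw [Finset.sum_congr rfl fun i _ => e1 i, Fin.sum_univ_eq_sum_range (fun j : ℕ =>
      (if j = (k : ℕ) then (if (k : ℕ) + 1 < n then top4E c k else 0) else 0)
          - (if j + 1 = (k : ℕ) then top4E c (k - 1) else 0)
          + (if j + 1 = n then (if (k : ℕ) + 2 = n ∨ (k : ℕ) + 1 = n then top4E c (n - 1) else 0)
              else 0)) n, Finset.sum_add_distrib,
    Finset.sum_sub_distrib, Finset.sum_ite_eq', if_pos (Finset.mem_range.2 hk),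
    top4_sum_succ_eq n k hk.le, top4_sum_succ_eq n n le_rfl, if_pos (show 1 ≤ n by omega)]

/-- pairings with the simple roots -/
theorem top4_pair (hn : 2 ≤ n) (L : Fin n → ℤ) (i : Fin n) :
    ∑ k, L k * simpleRootD n i k
      = if (i : ℕ) + 1 < n then top4E L i - top4E L (i + 1)
        else top4E L (n - 2) + top4E L (n - 1) := by
  have hi := i.2
  by_cases h1 : (i : ℕ) + 1 < n
  · rw [if_pos h1]
    have e1 : ∀ k : Fin n, L k * simpleRootD n i k
        = (fun j : ℕ => (if j = (i : ℕ) then top4E L i else 0)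
            - (if j = (i : ℕ) + 1 then top4E L (i + 1) else 0)) (k : ℕ) := by
      intro k
      rw [← top4E_val L k]
      unfold simpleRootD
      simp only [Fin.ext_iff]
      rw [if_pos h1]
      by_cases h2 : (k : ℕ) = i
      · rw [if_pos h2, if_neg (by omega), if_pos h2, if_neg (by omega), h2]
        ring
      · rw [if_neg h2, if_neg h2]
        by_cases h3 : (k : ℕ) = i + 1
        · rw [if_pos h3, if_pos h3, h3]
          ring
        · rw [if_neg h3, if_neg h3]
          ring
    rw [Finset.sum_congr rfl fun k _ => e1 k, Fin.sum_univ_eq_sum_range (fun j : ℕ =>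
        (if j = (i : ℕ) then top4E L i else 0)
            - (if j = (i : ℕ) + 1 then top4E L (i + 1) else 0)) n, Finset.sum_sub_distrib,
      Finset.sum_ite_eq', Finset.sum_ite_eq', if_pos (Finset.mem_range.2 hi),
      if_pos (Finset.mem_range.2 h1)]
  · rw [if_neg h1]
    have e1 : ∀ k : Fin n, L k * simpleRootD n i k
        = (fun j : ℕ => (if j = n - 2 then top4E L (n - 2) else 0)
            + (if j = n - 1 then top4E L (n - 1) else 0)) (k : ℕ) := by
      intro k
      have hk := k.2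
      rw [← top4E_val L k]
      unfold simpleRootD
      beta_reduce
      rw [if_neg h1]
      by_cases h2 : (k : ℕ) + 2 = n
      · rw [if_pos h2, if_neg (show ¬ (k : ℕ) + 1 = n by omega),
          if_pos (show (k : ℕ) = n - 2 by omega), if_neg (show ¬ (k : ℕ) = n - 1 by omega),
          show n - 2 = (k : ℕ) by omega]
        ring
      · rw [if_neg h2, if_neg (show ¬ (k : ℕ) = n - 2 by omega)]
        by_cases h3 : (k : ℕ) + 1 = n
        · rw [if_pos h3, if_pos (show (k : ℕ) = n - 1 by omega), show n - 1 = (k : ℕ) by omega]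
          ring
        · rw [if_neg h3, if_neg (show ¬ (k : ℕ) = n - 1 by omega)]
          ring
    rw [Finset.sum_congr rfl fun k _ => e1 k, Fin.sum_univ_eq_sum_range (fun j : ℕ =>
        (if j = n - 2 then top4E L (n - 2) else 0)
            + (if j = n - 1 then top4E L (n - 1) else 0)) n, Finset.sum_add_distrib,
      Finset.sum_ite_eq', Finset.sum_ite_eq', if_pos (Finset.mem_range.2 (by omega)),
      if_pos (Finset.mem_range.2 (by omega))]

theorem top4E_zero (L : Fin n → ℤ) {r : ℕ} (hs : ∀ i : Fin n, r ≤ (i : ℕ) → L i = 0) {j : ℕ}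
    (hj : r ≤ j) : top4E L j = 0 := by
  unfold top4E
  split_ifs with h
  · exact hs ⟨j, h⟩ hj
  · rfl

theorem top4E_trunc {m : ℕ} (h : m ≤ n) (L : Fin n → ℤ) {j : ℕ} (hj : j < m) :
    top4E (truncZ m h L) j = top4E L j := by
  rw [top4E_mk _ hj, top4E_mk _ (hj.trans_le h)]
  rfl

theorem top4E_two_smul (L : Fin n → ℤ) (j : ℕ) : top4E (2 • L) j = 2 * top4E L j := by
  unfold top4E
  split_ifs
  · simp
  · simp

theorem top4E_step (L : Fin n → ℤ) (hL : IsDominantWeight2 L) {j : ℕ} (hj : j + 1 < n) :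
    Even (top4E L j - top4E L (j + 1)) ∧ top4E L (j + 1) ≤ top4E L j := by
  rw [top4E_mk L (show j < n by omega), top4E_mk L hj]
  exact ⟨hL.1 _ _, (le_abs_self _).trans (hL.2 _ _ (by simp [Fin.lt_def]))⟩

theorem top_trunc_dom (r : ℕ) (hrn : r + 2 ≤ n) (L : Fin n → ℤ) (hL : IsDominantWeight2 L) :
    IsDominantWeight2 (truncZ (r + 1) (by omega) L) :=
  ⟨fun _ _ => hL.1 _ _, fun i j hij => hL.2 (Fin.castLE _ i) (Fin.castLE _ j) hij⟩

theorem top_trunc_smul (m : ℕ) (h : m ≤ n) (N : ℕ) (L : Fin n → ℤ) :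
    truncZ m h (N • L) = N • truncZ m h L := rfl

theorem top_trunc_half (m : ℕ) (h : m ≤ n) (L : Fin n → ℤ) :
    truncV m h (half L) = half (truncZ m h L) := rfl

theorem top_trunc_sum (m : ℕ) (h : m ≤ n) (θ : Shape n) :
    (θ.map (truncV m h)).sum = truncV m h θ.sum := by
  induction θ with
  | nil => rfl
  | cons v θ ih =>
    rw [List.map_cons, List.sum_cons, List.sum_cons, ih]
    rfl

/-- the pairings vanish beyond the support -/
theorem top_pair_zero (r : ℕ) (hrn : r + 2 ≤ n) (L : Fin n → ℤ)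
    (hs : ∀ i : Fin n, r ≤ (i : ℕ) → L i = 0) (i : Fin n) (hi : r ≤ (i : ℕ)) : pairD n L i = 0 := by
  unfold pairD
  rw [top4_pair (by omega)]
  split_ifs
  · rw [top4E_zero L hs hi, top4E_zero L hs (show r ≤ (i : ℕ) + 1 by omega)]
    rfl
  · rw [top4E_zero L hs (show r ≤ n - 2 by omega), top4E_zero L hs (show r ≤ n - 1 by omega)]
    rfl

/-- `cutBd` of the pairings = pairings of twice the truncated weight -/
theorem top_cut_pair (r : ℕ) (hr : 1 ≤ r) (hrn : r + 2 ≤ n) (L : Fin n → ℤ)
    (hL : IsDominantWeight2 L) (hs : ∀ i : Fin n, r ≤ (i : ℕ) → L i = 0) :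
    cutBd n r hr hrn (pairD n L) = pairD (r + 1) (2 • truncZ (r + 1) (by omega) L) := by
  funext i
  have hi := i.2
  unfold cutBd pairD
  rw [top4_pair (by omega), top4_pair (by omega)]
  have hc : ((cutIdx n r hr hrn i : Fin n) : ℕ) = min (i : ℕ) (r - 1) := rfl
  rw [hc, if_pos (by omega)]
  obtain ⟨⟨t, ht⟩, hle⟩ := top4E_step L hL (j := min (i : ℕ) (r - 1)) (by omega)
  by_cases h1 : (i : ℕ) + 1 < r + 1
  · rw [if_pos h1, top4E_two_smul, top4E_two_smul, top4E_trunc _ _ (by omega),
      top4E_trunc _ _ (by omega)]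
    have e : min (i : ℕ) (r - 1) = i := by omega
    rw [e] at ht hle ⊢
    omega
  · rw [if_neg h1, top4E_two_smul, top4E_two_smul, top4E_trunc _ _ (by omega),
      top4E_trunc _ _ (by omega)]
    have e : min (i : ℕ) (r - 1) = r - 1 := by omega
    rw [e, show r - 1 + 1 = r by omega, top4E_zero L hs le_rfl] at ht hle
    rw [e, show r - 1 + 1 = r by omega, show r + 1 - 2 = r - 1 by omega,
      show r + 1 - 1 = r by omega, top4E_zero L hs le_rfl]
    omega

theorem top4E_cutDim (r : ℕ) (hr : 1 ≤ r) (hrn : r + 2 ≤ n) (d : Fin n → ℕ) {j : ℕ}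
    (hj : j < r + 1) :
    top4E (fun i => (cutDim n r hr hrn d i : ℤ)) j
      = if j + 1 < r then 2 * top4E (fun i => (d i : ℤ)) j
        else top4E (fun i => (d i : ℤ)) (r - 1) := by
  rw [top4E_mk _ hj]
  unfold cutDim cutIdx
  simp only
  split_ifs with h
  · rw [top4E_mk _ (show j < n by omega)]
    have e : (⟨min j (r - 1), by omega⟩ : Fin n) = ⟨j, by omega⟩ := Fin.ext (by simp only; omega)
    rw [e]
    push_cast
    rfl
  · rw [top4E_mk _ (show r - 1 < n by omega)]
    have e : (⟨min j (r - 1), by omega⟩ : Fin n) = ⟨r - 1, by omega⟩ :=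
      Fin.ext (by simp only; omega)
    rw [e]

/-- `cutDim` of the simple-root coefficients = coefficients of twice the truncated difference -/
theorem top_cut_dim (r : ℕ) (hr : 1 ≤ r) (hrn : r + 2 ≤ n) (Δ : Fin n → ℤ) (d : Fin n → ℕ)
    (hs : ∀ i : Fin n, r ≤ (i : ℕ) → Δ i = 0)
    (hd : ∀ k, Δ k = 2 * ∑ i, (d i : ℤ) * simpleRootD n i k) (k : Fin (r + 1)) :
    2 * truncZ (r + 1) (by omega) Δ k
      = 2 * ∑ i, (cutDim n r hr hrn d i : ℤ) * simpleRootD (r + 1) i k := by
  have hk := k.2
  rw [top4_coef (fun i => (cutDim n r hr hrn d i : ℤ)) k]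
  have hT : truncZ (r + 1) (by omega) Δ k = Δ (Fin.castLE (by omega) k) := rfl
  rw [hT]
  have hv : ((Fin.castLE (show r + 1 ≤ n by omega) k : Fin n) : ℕ) = k := rfl
  by_cases h1 : (k : ℕ) < r
  · rw [hd, top4_coef (fun i => (d i : ℤ)), hv, if_pos (show (k : ℕ) + 1 < n by omega),
      if_neg (show ¬ ((k : ℕ) + 2 = n ∨ (k : ℕ) + 1 = n) by omega),
      if_pos (show (k : ℕ) + 1 < r + 1 by omega), top4E_cutDim r hr hrn d hk,
      top4E_cutDim r hr hrn d (show r + 1 - 1 < r + 1 by omega),
      if_neg (show ¬ (r + 1 - 1 + 1 < r) by omega)]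
    by_cases h2 : 1 ≤ (k : ℕ)
    · rw [if_pos h2, if_pos h2, top4E_cutDim r hr hrn d (show (k : ℕ) - 1 < r + 1 by omega),
        if_pos (show (k : ℕ) - 1 + 1 < r by omega)]
      by_cases h3 : (k : ℕ) + 1 < r
      · rw [if_pos h3, if_neg (show ¬ ((k : ℕ) + 2 = r + 1 ∨ (k : ℕ) + 1 = r + 1) by omega)]
        ring
      · rw [if_neg h3, if_pos (show ((k : ℕ) + 2 = r + 1 ∨ (k : ℕ) + 1 = r + 1) by omega),
          show r - 1 = (k : ℕ) by omega]
        ring
    · rw [if_neg h2, if_neg h2]
      by_cases h3 : (k : ℕ) + 1 < r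
      · rw [if_pos h3, if_neg (show ¬ ((k : ℕ) + 2 = r + 1 ∨ (k : ℕ) + 1 = r + 1) by omega)]
        ring
      · rw [if_neg h3, if_pos (show ((k : ℕ) + 2 = r + 1 ∨ (k : ℕ) + 1 = r + 1) by omega),
          show r - 1 = (k : ℕ) by omega]
        ring
  · rw [hs _ (show r ≤ ((Fin.castLE (show r + 1 ≤ n by omega) k : Fin n) : ℕ) by rw [hv]; omega),
      if_neg (show ¬ ((k : ℕ) + 1 < r + 1) by omega), if_pos (show 1 ≤ (k : ℕ) by omega),
      if_pos (show ((k : ℕ) + 2 = r + 1 ∨ (k : ℕ) + 1 = r + 1) by omega),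
      top4E_cutDim r hr hrn d (show (k : ℕ) - 1 < r + 1 by omega),
      top4E_cutDim r hr hrn d (show r + 1 - 1 < r + 1 by omega),
      if_neg (show ¬ (r + 1 - 1 + 1 < r) by omega), if_neg (show ¬ ((k : ℕ) - 1 + 1 < r) by omega)]
    ring

/-- the columns of a weight supported on the first `r` coordinates vanish beyond them -/
theorem top_cols_tail (r : ℕ) (hrn : r + 2 ≤ n) (M : Fin n → ℤ) (hM : IsDominantWeight2 M)
    (hs : ∀ i : Fin n, r ≤ (i : ℕ) → M i = 0) :
    ∀ v ∈ (colsOf n M).map (fundV n), (∀ i : Fin n, r ≤ (i : ℕ) → v i = 0) ∧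
      Dom (truncV (r + 1) (by omega) v) := by
  intro v hv
  obtain ⟨k, hk, rfl⟩ := List.mem_map.1 hv
  unfold colsOf at hk
  obtain ⟨i, -, hi⟩ := List.mem_flatMap.1 hk
  obtain ⟨hne, rfl⟩ := List.mem_replicate.1 hi
  have hkr : (k : ℕ) < r := by
    by_contra h
    exact hne (top_pair_zero r hrn M hs k (not_lt.1 h))
  have hf : ∀ i : Fin n, fundV n k i = if (i : ℕ) ≤ k then 1 else 0 := by
    intro i
    unfold fundV
    rw [if_pos (by omega)]
  refine ⟨fun i hi => ?_, fun i j hij => ?_⟩
  · rw [hf, if_neg (by omega)]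
  · show |fundV n k (Fin.castLE _ j)| ≤ fundV n k (Fin.castLE _ i)
    rw [hf, hf]
    have hij' : (i : ℕ) < j := hij
    have e1 : ((Fin.castLE (show r + 1 ≤ n by omega) i : Fin n) : ℕ) = i := rfl
    have e2 : ((Fin.castLE (show r + 1 ≤ n by omega) j : Fin n) : ℕ) = j := rfl
    rw [e1, e2]
    by_cases h1 : (j : ℕ) ≤ k
    · rw [if_pos h1, if_pos (by omega), abs_one]
    · rw [if_neg h1, abs_zero]
      split_ifs <;> norm_num

/-- root lattice after truncation -/
theorem top_trunc_Q (r : ℕ) (hrn : r + 2 ≤ n) (x : Vec n) (hx : InQD x)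
    (hs : ∀ i : Fin n, r ≤ (i : ℕ) → x i = 0) : InQD (truncV (r + 1) (by omega) x) := by
  obtain ⟨h1, z, hz⟩ := hx
  refine ⟨fun i => h1 _, z, ?_⟩
  rw [← hz]
  exact top4_sum_castLE (by omega) x fun i hi => hs i (by omega)

/-- the truncated moving weight has exactly one zero -/
theorem top_trunc_zero (r : ℕ) (hrn : r + 2 ≤ n) (M : Fin n → ℤ)
    (hs : ∀ i : Fin n, M i ≠ 0 ↔ (i : ℕ) < r) :
    (Finset.univ.filter fun i => half (truncZ (r + 1) (by omega) M) i = 0).card ≤ 1 := by
  have key : ∀ a : Fin (r + 1), half (truncZ (r + 1) (by omega) M) a = 0 → (a : ℕ) = r := by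
    intro a ha
    have h0 : M (Fin.castLE (by omega) a) = 0 := by
      have h1 : ((M (Fin.castLE (by omega) a) : ℤ) : ℝ) / 2 = 0 := ha
      have h2 : ((M (Fin.castLE (by omega) a) : ℤ) : ℝ) = 0 := by linarith
      exact_mod_cast h2
    have h3 : ¬ (((Fin.castLE (show r + 1 ≤ n by omega) a : Fin n) : ℕ) < r) := fun h =>
      (hs _).2 h h0
    have e1 : ((Fin.castLE (show r + 1 ≤ n by omega) a : Fin n) : ℕ) = a := rfl
    have := a.2
    omega
  rw [Finset.card_le_one]
  intro a ha b hb
  have h1 := key a (Finset.mem_filter.1 ha).2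
  have h2 := key b (Finset.mem_filter.1 hb).2
  exact Fin.ext (by omega)

/-! ## L-TOP-5: padding a schedule with zero coordinates -/

section Pad

variable {m : ℕ}

/-- vanishing beyond the first `m` coordinates -/
def top5Van (m : ℕ) (x : Vec n) : Prop := ∀ i : Fin n, m ≤ (i : ℕ) → x i = 0

theorem top5_ext (h : m ≤ n) {x y : Vec n} (hx : top5Van m x) (hy : top5Van m y)
    (e : truncV m h x = truncV m h y) : x = y := by
  funext i
  by_cases hi : (i : ℕ) < m
  · exact congrFun e ⟨i, hi⟩
  · rw [hx i (not_lt.1 hi), hy i (not_lt.1 hi)]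

theorem top5_dot (h : m ≤ n) (x y : Vec n) (hx : top5Van m x) :
    dot x y = dot (truncV m h x) (truncV m h y) := by
  unfold dot
  exact (top4_sum_castLE h (fun i => x i * y i) fun i hi => by
    show x i * y i = 0
    rw [hx i hi, zero_mul]).symm

theorem top5_dot' (h : m ≤ n) (x y : Vec n) (hy : top5Van m y) :
    dot x y = dot (truncV m h x) (truncV m h y) := by
  unfold dot
  exact (top4_sum_castLE h (fun i => x i * y i) fun i hi => by
    show x i * y i = 0
    rw [hy i hi, mul_zero]).symm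

theorem top5Van_zero : top5Van m (0 : Vec n) := fun _ _ => rfl

theorem top5Van_add {x y : Vec n} (hx : top5Van m x) (hy : top5Van m y) : top5Van m (x + y) :=
  fun i hi => by rw [Pi.add_apply, hx i hi, hy i hi, add_zero]

theorem top5Van_sub {x y : Vec n} (hx : top5Van m x) (hy : top5Van m y) : top5Van m (x - y) :=
  fun i hi => by rw [Pi.sub_apply, hx i hi, hy i hi, sub_zero]

theorem top5Van_smul (c : ℝ) {x : Vec n} (hx : top5Van m x) : top5Van m (c • x) :=
  fun i hi => by rw [Pi.smul_apply, hx i hi, smul_zero]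

/-! ### roots -/

/-- embedding of the roots -/
def top5R (h : m ≤ n) (β : RootD m) : RootD n :=
  ⟨Fin.castLE h β.i, Fin.castLE h β.j, fun e => β.ne (Fin.castLE_injective h e), β.si, β.sj⟩

theorem top5R_van (h : m ≤ n) (β : RootD m) : top5Van m (top5R h β).vec := by
  intro k hk
  unfold RootD.vec top5R
  have h1 : k ≠ Fin.castLE h β.i := fun e => by
    have : (k : ℕ) = β.i := by rw [e]; rfl
    have := β.i.2
    omega
  have h2 : k ≠ Fin.castLE h β.j := fun e => by
    have : (k : ℕ) = β.j := by rw [e]; rfl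
    have := β.j.2
    omega
  simp only [if_neg h1, if_neg h2, add_zero]

theorem top5R_trunc (h : m ≤ n) (β : RootD m) : truncV m h (top5R h β).vec = β.vec := by
  funext k
  unfold truncV RootD.vec top5R
  simp only [(Fin.castLE_injective h).eq_iff]

theorem top5_refl_van (h : m ≤ n) (β : RootD m) {x : Vec n} (hx : top5Van m x) :
    top5Van m (refl (top5R h β) x) :=
  top5Van_sub hx (top5Van_smul _ (top5R_van h β))

theorem top5_refl_trunc (h : m ≤ n) (β : RootD m) (x : Vec n) :
    truncV m h (refl (top5R h β) x) = refl β (truncV m h x) := by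
  show truncV m h x - dot x (top5R h β).vec • truncV m h (top5R h β).vec
    = truncV m h x - dot (truncV m h x) β.vec • β.vec
  rw [top5_dot' h x _ (top5R_van h β), top5R_trunc]

/-! ### the Weyl group -/

/-- extension of a self-map by the identity -/
def top5F (h : m ≤ n) (σ : Fin m → Fin m) (i : Fin n) : Fin n :=
  if hi : (i : ℕ) < m then Fin.castLE h (σ ⟨i, hi⟩) else i

theorem top5F_castLE (h : m ≤ n) (σ : Fin m → Fin m) (a : Fin m) :
    top5F h σ (Fin.castLE h a) = Fin.castLE h (σ a) := by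
  unfold top5F
  rw [dif_pos (show ((Fin.castLE h a : Fin n) : ℕ) < m from a.2)]
  rfl

theorem top5F_ge (h : m ≤ n) (σ : Fin m → Fin m) {i : Fin n} (hi : m ≤ (i : ℕ)) :
    top5F h σ i = i := by
  unfold top5F
  rw [dif_neg (by omega)]

theorem top5F_comp (h : m ≤ n) {σ τ : Fin m → Fin m} (hτ : ∀ a, τ (σ a) = a) (i : Fin n) :
    top5F h τ (top5F h σ i) = i := by
  by_cases hi : (i : ℕ) < m
  · have e : i = Fin.castLE h ⟨i, hi⟩ := rfl
    rw [e, top5F_castLE, top5F_castLE, hτ]
  · rw [top5F_ge h σ (not_lt.1 hi), top5F_ge h τ (not_lt.1 hi)]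

/-- embedding of the Weyl group -/
def top5W (h : m ≤ n) (w : WD m) : WD n where
  σ := ⟨top5F h w.σ, top5F h w.σ.symm, top5F_comp h w.σ.symm_apply_apply,
    top5F_comp h w.σ.apply_symm_apply⟩
  s := fun i => if hi : (i : ℕ) < m then w.s ⟨i, hi⟩ else false
  even := by
    have e : (Finset.univ.filter fun i : Fin n =>
        (if hi : (i : ℕ) < m then w.s ⟨i, hi⟩ else false) = true)
        = (Finset.univ.filter fun i : Fin m => w.s i = true).map (Fin.castLEEmb h) := by
      ext i
      rw [Finset.mem_filter, Finset.mem_map]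
      constructor
      · rintro ⟨-, hi⟩
        by_cases h1 : (i : ℕ) < m
        · rw [dif_pos h1] at hi
          exact ⟨⟨i, h1⟩, Finset.mem_filter.2 ⟨Finset.mem_univ _, hi⟩, rfl⟩
        · rw [dif_neg h1] at hi
          exact absurd hi (by simp)
      · rintro ⟨a, ha, rfl⟩
        refine ⟨Finset.mem_univ _, ?_⟩
        have h1 : ((Fin.castLEEmb h a : Fin n) : ℕ) < m := a.2
        rw [dif_pos h1]
        exact (Finset.mem_filter.1 ha).2
    rw [e, Finset.card_map]
    exact w.even

theorem top5W_van (h : m ≤ n) (w : WD m) {x : Vec n} (hx : top5Van m x) :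
    top5Van m ((top5W h w).act x) := by
  intro i hi
  show sgnB _ * x (top5F h w.σ.symm i) = 0
  rw [top5F_ge h _ hi, hx i hi, mul_zero]

theorem top5W_trunc (h : m ≤ n) (w : WD m) (x : Vec n) :
    truncV m h ((top5W h w).act x) = w.act (truncV m h x) := by
  funext a
  show sgnB (if hi : ((Fin.castLE h a : Fin n) : ℕ) < m then w.s ⟨(Fin.castLE h a : Fin n), hi⟩
    else false) * x (top5F h w.σ.symm (Fin.castLE h a)) = sgnB (w.s a) * x (Fin.castLE h (w.σ.symm a))
  rw [top5F_castLE, dif_pos (show ((Fin.castLE h a : Fin n) : ℕ) < m from a.2)]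
  rfl

/-! ### shapes -/

theorem top5_val_van {θ : Shape n} (hθ : ∀ v ∈ θ, top5Van m v) (t : ℝ) :
    top5Van m (θ.val t) := by
  induction θ generalizing t with
  | nil => exact top5Van_zero
  | cons v θ ih =>
    exact top5Van_add (top5Van_smul _ (hθ v List.mem_cons_self))
      (ih (fun u hu => hθ u (List.mem_cons_of_mem _ hu)) _)

theorem top5_val_trunc (h : m ≤ n) (θ : Shape n) (t : ℝ) :
    truncV m h (θ.val t) = Shape.val (θ.map (truncV m h)) t := by
  induction θ generalizing t with
  | nil => rfl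
  | cons v θ ih =>
    show truncV m h ((max 0 (min t 1)) • v + Shape.val θ (t - 1))
      = (max 0 (min t 1)) • truncV m h v + Shape.val (θ.map (truncV m h)) (t - 1)
    rw [← ih]
    rfl

theorem top5_sum_van {θ : Shape n} (hθ : ∀ v ∈ θ, top5Van m v) : top5Van m θ.sum := by
  induction θ with
  | nil => exact top5Van_zero
  | cons v θ ih =>
    rw [List.sum_cons]
    exact top5Van_add (hθ v List.mem_cons_self) (ih fun u hu => hθ u (List.mem_cons_of_mem _ hu))

/-! ### states -/

/-- the padded state `S'` of the state `S` -/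
structure top5Rel (h : m ≤ n) (S : SwState m) (S' : SwState n) : Prop where
  c_van : top5Van m S'.c
  c_tr : truncV m h S'.c = S.c
  f_van : ∀ x, top5Van m x → top5Van m (S'.frame x)
  f_tr : ∀ x, top5Van m x → truncV m h (S'.frame x) = S.frame (truncV m h x)

section Rel

variable {h : m ≤ n} {S : SwState m} {S' : SwState n} {θ : Shape n}

theorem top5Rel.pos_van (R : top5Rel h S S') (hθ : ∀ v ∈ θ, top5Van m v) (t : ℝ) :
    top5Van m (S'.pos θ t) :=
  top5Van_add R.c_van (R.f_van _ (top5_val_van hθ t))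

theorem top5Rel.pos_tr (R : top5Rel h S S') (hθ : ∀ v ∈ θ, top5Van m v) (t : ℝ) :
    truncV m h (S'.pos θ t) = S.pos (θ.map (truncV m h)) t := by
  show truncV m h S'.c + truncV m h (S'.frame (θ.val t)) = S.c + S.frame _
  rw [R.c_tr, R.f_tr _ (top5_val_van hθ t), top5_val_trunc]

theorem top5Rel.coeff_eq (R : top5Rel h S S') (hθ : ∀ v ∈ θ, top5Van m v) (t : ℝ) (β : RootD m) :
    S'.coeff θ t (top5R h β) = S.coeff (θ.map (truncV m h)) t β := by
  unfold SwState.coeff
  rw [top5_dot h _ _ (top5R_van h β), top5R_trunc, R.f_tr _ (top5_val_van hθ t), top5_val_trunc]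

theorem top5Rel.gap_eq (R : top5Rel h S S') (hθ : ∀ v ∈ θ, top5Van m v) (t : ℝ) (β : RootD m) :
    S'.gap θ t (top5R h β) = S.gap (θ.map (truncV m h)) t β := by
  unfold SwState.gap
  rw [top5_dot' h _ _ (top5R_van h β), top5R_trunc, R.pos_tr hθ]

theorem top5Rel.total_eq (R : top5Rel h S S') (hθ : ∀ v ∈ θ, top5Van m v) (β : RootD m) :
    S'.total θ (top5R h β) = S.total (θ.map (truncV m h)) β := by
  unfold SwState.total
  rw [top5_dot h _ _ (top5R_van h β), top5R_trunc, R.f_tr _ (top5_sum_van hθ), top_trunc_sum]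

theorem top5Rel.step (R : top5Rel h S S') (hθ : ∀ v ∈ θ, top5Van m v) (t : ℝ) (β : RootD m) :
    top5Rel h (S.step (θ.map (truncV m h)) t β) (S'.step θ t (top5R h β)) where
  c_van := top5Van_sub R.c_van (top5Van_smul _ (top5R_van h β))
  c_tr := by
    show truncV m h S'.c - S'.coeff θ t (top5R h β) • truncV m h (top5R h β).vec
      = S.c - S.coeff (θ.map (truncV m h)) t β • β.vec
    rw [R.c_tr, R.coeff_eq hθ, top5R_trunc]
  f_van := fun x hx => top5_refl_van h β (R.f_van x hx)
  f_tr := fun x hx => by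
    show truncV m h (refl (top5R h β) (S'.frame x)) = refl β (S.frame (truncV m h x))
    rw [top5_refl_trunc, R.f_tr x hx]

end Rel

/-- the padded list of switches -/
def top5L (h : m ≤ n) (l : List (ℝ × RootD m)) : List (ℝ × RootD n) :=
  l.map fun p => (p.1, top5R h p.2)

theorem top5_valid {h : m ≤ n} {θ : Shape n} (hθ : ∀ v ∈ θ, top5Van m v)
    (l : List (ℝ × RootD m)) : ∀ {S : SwState m} {S' : SwState n}, top5Rel h S S' →
      SwValid (θ.map (truncV m h)) S l → SwValid θ S' (top5L h l) := by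
  induction l with
  | nil => exact fun _ _ => trivial
  | cons p l ih =>
    intro S S' R hv
    obtain ⟨h1, h2, h3⟩ := hv
    refine ⟨?_, ?_, ih (R.step hθ p.1 p.2) h3⟩
    · show 0 ≤ S'.gap θ p.1 (top5R h p.2)
      rw [R.gap_eq hθ]
      exact h1
    · show 0 ≤ S'.total θ (top5R h p.2)
      rw [R.total_eq hθ]
      exact h2

theorem top5_integral {h : m ≤ n} {θ : Shape n} (hθ : ∀ v ∈ θ, top5Van m v)
    (l : List (ℝ × RootD m)) : ∀ {S : SwState m} {S' : SwState n}, top5Rel h S S' →
      SwIntegral (θ.map (truncV m h)) S l → SwIntegral θ S' (top5L h l) := by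
  induction l with
  | nil => exact fun _ _ => trivial
  | cons p l ih =>
    intro S S' R hv
    obtain ⟨h1, h3⟩ := hv
    refine ⟨?_, ih (R.step hθ p.1 p.2) h3⟩
    show ∃ z : ℤ, S'.coeff θ p.1 (top5R h p.2) = z
    rw [R.coeff_eq hθ]
    exact h1

theorem top5_run {h : m ≤ n} {θ : Shape n} (hθ : ∀ v ∈ θ, top5Van m v)
    (l : List (ℝ × RootD m)) : ∀ {S : SwState m} {S' : SwState n}, top5Rel h S S' →
      top5Rel h (runSw (θ.map (truncV m h)) S l) (runSw θ S' (top5L h l)) := by
  induction l with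
  | nil => exact fun R => R
  | cons p l ih =>
    intro S S' R
    exact ih (R.step hθ p.1 p.2)

end Pad

theorem top_pad (m : ℕ) (h : m ≤ n) (lam xi : Vec n) (θ : Shape n)
    (hl : ∀ i : Fin n, m ≤ (i : ℕ) → lam i = 0) (hx : ∀ i : Fin n, m ≤ (i : ℕ) → xi i = 0)
    (hθ : ∀ v ∈ θ, ∀ i : Fin n, m ≤ (i : ℕ) → v i = 0)
    (hs : HasIntSchedule (truncV m h lam) (θ.map (truncV m h)) (truncV m h xi)) :
    HasIntSchedule lam θ xi := by
  obtain ⟨w0, l, hS, hI⟩ := hs
  have R0 : top5Rel h ⟨w0.act, truncV m h lam⟩ ⟨(top5W h w0).act, lam⟩ :=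
    ⟨hl, rfl, fun x hx => top5W_van h w0 hx, fun x _ => top5W_trunc h w0 x⟩
  refine ⟨top5W h w0, top5L h l, ⟨?_, ?_, top5_valid hθ l R0 hS.valid, ?_⟩,
    top5_integral hθ l R0 hI⟩
  · intro p hp
    obtain ⟨q, hq, rfl⟩ := List.mem_map.1 hp
    have := hS.times_mem q hq
    rwa [List.length_map] at this
  · unfold top5L
    rw [List.pairwise_map]
    exact hS.sorted
  · obtain ⟨w, hw⟩ := hS.endpoint
    refine ⟨top5W h w, ?_⟩
    have R := top5_run hθ l R0
    refine top5_ext h (R.pos_van hθ _) (top5W_van h w hx) ?_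
    rw [R.pos_tr hθ, top5W_trunc, ← hw, List.length_map]

end Claimed.Agent.R282
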