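import Claimed.Statements.S0528
import Claimed.Agent.R282.S34.Defs
import Claimed.Agent.R282.K2.Iface

/-!
# Row 282: top level, definitions and the list of contracts

`TopC` is the list of the contracts consumed by the top-level proof (`Top/Main.lean`).
All weights of the frozen statement are DOUBLED (`L = 2 λ`); `half L` is the true weight.
-/

set_option autoImplicit false

open Claims Claims.C0456

namespace Claimed.Agent.R282

/-- the true weight of a doubled weight -/
noncomputable def half {n : ℕ} (L : Fin n → ℤ) : Vec n := fun i => (L i : ℝ) / 2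

/-- `⟨λ, α_i⟩` for the doubled weight `L = 2 λ` -/
def pairD (n : ℕ) (L : Fin n → ℤ) (i : Fin n) : ℕ :=
  ((∑ k, L k * simpleRootD n i k) / 2).toNat

/-- fundamental weights of `D_n` (0-based): `ω_k = e_0 + ... + e_k` for `k + 2 < n`,
`ω_(n-2) = (1/2, ..., 1/2, -1/2)`, `ω_(n-1) = (1/2, ..., 1/2)`. -/
noncomputable def fundV (n : ℕ) (k : Fin n) : Vec n := fun i =>
  if (k : ℕ) + 2 < n then (if (i : ℕ) ≤ k then 1 else 0)
  else if (k : ℕ) + 2 = n then (if (i : ℕ) + 1 = n then -1 / 2 else 1 / 2)
  else 1 / 2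

/-- the successive fundamental columns of a dominant weight -/
def colsOf (n : ℕ) (M : Fin n → ℤ) : List (Fin n) :=
  (List.finRange n).flatMap fun i => List.replicate (pairD n M i) i

/-- number of zero coordinates -/
def nZero {n : ℕ} (L : Fin n → ℤ) : ℕ := (Finset.univ.filter fun i => L i = 0).card

/-- length of the support -/
def suppLen {n : ℕ} (L : Fin n → ℤ) : ℕ := (Finset.univ.filter fun i => L i ≠ 0).card

/-- truncation to the first `m` coordinates -/
def truncZ {n : ℕ} (m : ℕ) (h : m ≤ n) (L : Fin n → ℤ) : Fin m → ℤ := fun i => L (Fin.castLE h i)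

/-- truncation to the first `m` coordinates -/
def truncV {n : ℕ} (m : ℕ) (h : m ≤ n) (x : Vec n) : Vec m := fun i => x (Fin.castLE h i)

/-- The contracts consumed by the top level. -/
structure TopC : Prop where
  /-- symmetry of the invariant (R layer) -/
  sym12 : ∀ (n : ℕ) (L M K : Fin n → ℤ), 2 ≤ n → IsDominantWeight2 L → IsDominantWeight2 M →
    IsDominantWeight2 K → HasTensorInvariant L M K → HasTensorInvariant M L K
  /-- symmetry of the invariant (R layer) -/
  sym23 : ∀ (n : ℕ) (L M K : Fin n → ℤ), 2 ≤ n → IsDominantWeight2 L → IsDominantWeight2 M →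
    IsDominantWeight2 K → HasTensorInvariant L M K → HasTensorInvariant L K M
  /-- stretching (R layer or path model) -/
  scale : ∀ (n : ℕ) (L M X : Fin n → ℤ), 2 ≤ n → IsDominantWeight2 L → IsDominantWeight2 M →
    IsDominantWeight2 X → ∀ N : ℕ, 1 ≤ N → tensorMult L M X ≠ 0 →
      tensorMult (N • L) (N • M) (N • X) ≠ 0
  /-- Lemma 2.5 + bridge -/
  moment : ∀ (n : ℕ) (L M X : Fin n → ℤ), 2 ≤ n → IsDominantWeight2 L → IsDominantWeight2 M →
    IsDominantWeight2 X → ∀ N : ℕ, 1 ≤ N → tensorMult (N • L) (N • M) (N • X) ≠ 0 →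
      MomentD (half L) (half M) (half X)
  /-- Theorem 3.1 (ii) -/
  t31 : ∀ (n : ℕ) (lam xi : Vec n) (θ : Shape n), Lbl lam θ xi → MomentD lam θ.sum xi →
    HasIntSchedule lam θ xi
  /-- Prop 5.1 + bridge -/
  col : ∀ (n : ℕ) (L M X : Fin n → ℤ), 2 ≤ n → IsDominantWeight2 L → IsDominantWeight2 M →
    IsDominantWeight2 X → ∀ cols : List (Fin n), (cols.map (fundV n)).sum = half M →
      HasIntSchedule (half L) (cols.map (fundV n)) (half X) → tensorMult L M X ≠ 0
  /-- (6.4): Lemma 2.3 + presentation + bridge -/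
  dq : ∀ (n : ℕ) (L M X : Fin n → ℤ), 2 ≤ n → IsDominantWeight2 L → IsDominantWeight2 M →
    IsDominantWeight2 X → (tensorMult L M X ≠ 0 ↔
      ∃ d : Fin n → ℕ, (∀ k, L k + M k - X k = 2 * ∑ i, (d i : ℤ) * simpleRootD n i k) ∧
        DQne ℚ n (pairD n L) (pairD n M) d)

end Claimed.Agent.R282
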