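import Claimed.Agent.R282.Top.Main
import Claimed.Agent.R282.Rep.ForTop
import Claimed.Agent.R282.Rep.Shift
import Claimed.Agent.R282.S2C.Final
import Claimed.Agent.R282.S34.Main
import Claimed.Agent.R282.Col.Main

/-!
# Row 282: final wiring.  `topC : TopC` from the layers, and the statement of S0528.

No sorry of its own.  `Claimed/Agent/S0528.lean` will be `result := s0528_final ...` once the closure is sorry-free.
-/

set_option autoImplicit false

open Claims Claims.C0456

namespace Claimed.Agent.R282

theorem schedMoment_D : SchedMoment .D := by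
  intro n lam xi θ hθ h
  exact sched_moment lam xi θ hθ h

/-- all contracts of the top level -/
theorem topC : TopC where
  sym12 := fun _ L M K hn hL hM hK h => forTop_sym12 L M K hn hL hM hK h
  sym23 := fun _ L M K hn hL hM hK h => forTop_sym23 L M K hn hL hM hK h
  scale := fun _ L M X hn hL hM hX N hN h => forTop_scale L M X hn hL hM hX N hN h
  moment := fun _ L M X hn hL hM hX N hN h => forTop_moment L M X hn hL hM hX N hN h
  t31 := fun n lam xi θ hl hM =>
    thm31 basicSchedule_pf (basicSchedule_A_of_D basicSchedule_pf) schedMoment_D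
      (schedMoment_A_of_D schedMoment_D) n lam xi θ hl.ne hl.dom hl.wl hl.wm hl.wx hl.hQ hl.hz hM
  col := fun n L M X hn hL hM hX cols hsum h =>
    col_main (fun _ L M X hn hL hM hX h => (rep_bridge hn L M X hL hM hX).2 h)
      n L M X hn hL hM hX cols hsum h
  dq := fun _ L M X hn hL hM hX => forTop_dq L M X hn hL hM hX

/-- the statement of S0528 -/
theorem s0528_final (n : ℕ) (hn : 2 ≤ n) (L M K : Fin n → ℤ)
    (hL : IsDominantWeight2 L) (hM : IsDominantWeight2 M) (hK : IsDominantWeight2 K)
    (hQ : SumInRootLatticeD L M K) (N : ℕ) (hN : 1 ≤ N) :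
    HasTensorInvariant L M K ↔ HasTensorInvariant (N • L) (N • M) (N • K) :=
  top_main topC hn L M K hL hM hK hQ N hN

end Claimed.Agent.R282
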