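import Claimed.Agent.R282.Top.Leaves
import Claimed.Agent.R282.K2.Prop61

/-!
# Row 282: the top-level proof of S0528 from the contracts `TopC`

Paper: Sec. 6.5 "Completion of the saturation theorem".
-/

set_option autoImplicit false

open Claims Claims.C0456

namespace Claimed.Agent.R282

variable {n : ℕ}

/-- the branch "the moving weight has at most one zero coordinate" -/
theorem top_core_reg (C : TopC) (hn : 2 ≤ n) (L M K : Fin n → ℤ)
    (hL : IsDominantWeight2 L) (hM : IsDominantWeight2 M) (hK : IsDominantWeight2 K)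
    (hQ : SumInRootLatticeD L M K) (N : ℕ) (hN : 1 ≤ N) (hz : nZero M ≤ 1)
    (h : HasTensorInvariant (N • L) (N • M) (N • K)) : HasTensorInvariant L M K := by
  unfold HasTensorInvariant at h ⊢
  rw [top_dual_smul] at h
  have hX := top_dual_dom K hK
  have hmom := C.moment n L M (dualWeightD K) hn hL hM hX N hN h
  have hsum := top_cols_sum hn M hM
  have hM0 : M ≠ 0 := by
    rintro rfl
    have : nZero (0 : Fin n → ℤ) = n := by simp [nZero]
    omega
  have hlbl : Lbl (half L) ((colsOf n M).map (fundV n)) (half (dualWeightD K)) := by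
    refine ⟨?_, ?_, top_half_wt L hL, ?_, top_half_wt _ hX, ?_, ?_⟩
    · intro h0
      exact top_cols_ne hn M hM hM0 (List.map_eq_nil_iff.mp h0)
    · intro v hv
      obtain ⟨k, _, rfl⟩ := List.mem_map.mp hv
      exact top_fund_dom hn k
    · rw [hsum]; exact top_half_wt M hM
    · rw [hsum]; exact top_half_Q L M K hK hQ
    · rw [hsum, top_nZero_half]; exact hz
  have hs := C.t31 n _ _ _ hlbl (by rw [hsum]; exact hmom)
  exact C.col n L M (dualWeightD K) hn hL hM hX (colsOf n M) hsum hs

/-- the branch "all three labels have a zero tail", the moving label having the largest support -/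
theorem top_core_tail (C : TopC) (hn : 2 ≤ n) (L M K : Fin n → ℤ)
    (hL : IsDominantWeight2 L) (hM : IsDominantWeight2 M) (hK : IsDominantWeight2 K)
    (hQ : SumInRootLatticeD L M K) (N : ℕ) (hN : 1 ≤ N)
    (zL : 2 ≤ nZero L) (zM : 2 ≤ nZero M) (zK : 2 ≤ nZero K)
    (sL : suppLen L ≤ suppLen M) (sK : suppLen K ≤ suppLen M)
    (h : HasTensorInvariant (N • L) (N • M) (N • K)) : HasTensorInvariant L M K := by
  unfold HasTensorInvariant at h ⊢
  rw [top_dual_smul, top_tail_dual K hK zK] at h
  rw [top_tail_dual K hK zK]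
  obtain ⟨r, hr⟩ : ∃ r, r = suppLen M := ⟨_, rfl⟩
  have hrn : r + 2 ≤ n := by have := top_nZero_add M; omega
  have tL : ∀ i : Fin n, r ≤ (i : ℕ) → L i = 0 := by
    intro i hi
    by_contra h0
    have := (top_tail_supp L hL zL i).mp h0
    omega
  have tM : ∀ i : Fin n, r ≤ (i : ℕ) → M i = 0 := by
    intro i hi
    by_contra h0
    have := (top_tail_supp M hM zM i).mp h0
    omega
  have tK : ∀ i : Fin n, r ≤ (i : ℕ) → K i = 0 := by
    intro i hi
    by_contra h0
    have := (top_tail_supp K hK zK i).mp h0
    omega
  have hsum := top_cols_sum hn M hM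
  rcases Nat.eq_zero_or_pos r with h0 | hr1
  · -- all labels vanish
    have eL : L = 0 := by funext i; exact tL i (by omega)
    have eM : M = 0 := by funext i; exact tM i (by omega)
    have eK : K = 0 := by funext i; exact tK i (by omega)
    subst eL eM eK
    refine C.col n 0 0 0 hn hL hM hK [] ?_ ?_
    · funext i; simp [half]
    · have e : half (0 : Fin n → ℤ) = 0 := by funext i; simp [half]
      rw [e]; exact top_sched_zero
  · have hm : r + 1 ≤ n := by omega
    -- occurrence at scale N in rank n gives a double quotient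
    obtain ⟨d, hd, hDQ⟩ := (C.dq n (N • L) (N • M) (N • K) hn (top_smul_dom N L hL)
      (top_smul_dom N M hM) (top_smul_dom N K hK)).mp h
    have tNL : ∀ i : Fin n, r ≤ (i : ℕ) → (N • L) i = 0 := fun i hi => by simp [tL i hi]
    have tNM : ∀ i : Fin n, r ≤ (i : ℕ) → (N • M) i = 0 := fun i hi => by simp [tM i hi]
    have tNK : ∀ i : Fin n, r ≤ (i : ℕ) → (N • K) i = 0 := fun i hi => by simp [tK i hi]
    have hDQ' := prop61_dq n r hr1 hrn _ _ d (top_pair_zero r hrn _ tNL) (top_pair_zero r hrn _ tNM) hDQ
    rw [top_cut_pair r hr1 hrn _ (top_smul_dom N L hL) tNL,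
      top_cut_pair r hr1 hrn _ (top_smul_dom N M hM) tNM] at hDQ'
    -- back to an occurrence in rank r + 1 at scale 2 N
    have dL := top_trunc_dom r hrn L hL
    have dM := top_trunc_dom r hrn M hM
    have dK := top_trunc_dom r hrn K hK
    have e2 : ∀ A : Fin n → ℤ, 2 • truncZ (r + 1) hm (N • A) = (2 * N) • truncZ (r + 1) hm A := by
      intro A; rw [top_trunc_smul, smul_smul]
    have hocc : tensorMult ((2 * N) • truncZ (r + 1) hm L) ((2 * N) • truncZ (r + 1) hm M)
        ((2 * N) • truncZ (r + 1) hm K) ≠ 0 := by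
      refine (C.dq (r + 1) _ _ _ (by omega) (top_smul_dom _ _ dL) (top_smul_dom _ _ dM)
        (top_smul_dom _ _ dK)).mpr ⟨cutDim n r hr1 hrn d, ?_, ?_⟩
      · intro k
        have := top_cut_dim r hr1 hrn (N • L + N • M - N • K) d
          (fun i hi => by simp [tL i hi, tM i hi, tK i hi]) (fun k => by simpa using hd k) k
        rw [← this]
        simp only [truncZ, Pi.smul_apply, Pi.add_apply, Pi.sub_apply]
        simp only [nsmul_eq_mul]
        push_cast
        ring
      · rw [← e2 L, ← e2 M]; exact hDQ'
    have hmom := C.moment (r + 1) _ _ _ (by omega) dL dM dK (2 * N) (by omega) hocc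
    -- integral schedule in rank r + 1 for the restricted column shape
    have hcols := top_cols_tail r hrn M hM tM
    have hsum' : (((colsOf n M).map (fundV n)).map (truncV (r + 1) hm)).sum
        = half (truncZ (r + 1) hm M) := by
      rw [top_trunc_sum, hsum, top_trunc_half]
    have hM0 : M ≠ 0 := by
      rintro rfl
      have : suppLen (0 : Fin n → ℤ) = 0 := by simp [suppLen]
      omega
    have hlbl : Lbl (half (truncZ (r + 1) hm L))
        (((colsOf n M).map (fundV n)).map (truncV (r + 1) hm)) (half (truncZ (r + 1) hm K)) := by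
      refine ⟨?_, ?_, top_half_wt _ dL, ?_, top_half_wt _ dK, ?_, ?_⟩
      · intro h0
        exact top_cols_ne hn M hM hM0 (List.map_eq_nil_iff.mp (List.map_eq_nil_iff.mp h0))
      · intro v hv
        obtain ⟨u, hu, rfl⟩ := List.mem_map.mp hv
        exact (hcols u hu).2
      · rw [hsum']; exact top_half_wt _ dM
      · rw [hsum']
        have hq := top_half_Q L M K hK hQ
        rw [top_tail_dual K hK zK] at hq
        have := top_trunc_Q r hrn _ hq (fun i hi => by simp [half, tL i hi, tM i hi, tK i hi])
        have e : truncV (r + 1) hm (half L + half M - half K)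
            = half (truncZ (r + 1) hm L) + half (truncZ (r + 1) hm M)
              - half (truncZ (r + 1) hm K) := by
          funext i; simp [truncV, truncZ, half]
        rw [← e]; exact this
      · rw [hsum']
        exact top_trunc_zero r hrn M (fun i => by rw [hr]; exact top_tail_supp M hM zM i)
    have hs := C.t31 (r + 1) _ _ _ hlbl (by rw [hsum']; exact hmom)
    -- pad with zero coordinates and apply Prop 5.1
    rw [← top_trunc_half, ← top_trunc_half] at hs
    have hs' := top_pad (r + 1) hm (half L) (half K) ((colsOf n M).map (fundV n))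
      (fun i hi => by simp [half, tL i (by omega)]) (fun i hi => by simp [half, tK i (by omega)])
      (fun v hv i hi => (hcols v hv).1 i (by omega)) hs
    exact C.col n L M K hn hL hM hK (colsOf n M) hsum hs'

/-- S0528 from the contracts. -/
theorem top_main (C : TopC) (hn : 2 ≤ n) (L M K : Fin n → ℤ)
    (hL : IsDominantWeight2 L) (hM : IsDominantWeight2 M) (hK : IsDominantWeight2 K)
    (hQ : SumInRootLatticeD L M K) (N : ℕ) (hN : 1 ≤ N) :
    HasTensorInvariant L M K ↔ HasTensorInvariant (N • L) (N • M) (N • K) := by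
  have hNL := top_smul_dom N L hL
  have hNM := top_smul_dom N M hM
  have hNK := top_smul_dom N K hK
  constructor
  · intro h
    unfold HasTensorInvariant at h ⊢
    rw [top_dual_smul]
    exact C.scale n L M _ hn hL hM (top_dual_dom K hK) N hN h
  · intro h
    by_cases zM : nZero M ≤ 1
    · exact top_core_reg C hn L M K hL hM hK hQ N hN zM h
    by_cases zL : nZero L ≤ 1
    · exact C.sym12 n M L K hn hM hL hK
        (top_core_reg C hn M L K hM hL hK (top_Q_swap12 L M K hQ) N hN zL
          (C.sym12 n _ _ _ hn hNL hNM hNK h))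
    by_cases zK : nZero K ≤ 1
    · exact C.sym23 n L K M hn hL hK hM
        (top_core_reg C hn L K M hL hK hM (top_Q_swap23 L M K hQ) N hN zK
          (C.sym23 n _ _ _ hn hNL hNM hNK h))
    push Not at zM zL zK
    by_cases h1 : suppLen L ≤ suppLen M ∧ suppLen K ≤ suppLen M
    · exact top_core_tail C hn L M K hL hM hK hQ N hN zL zM zK h1.1 h1.2 h
    by_cases h2 : suppLen M ≤ suppLen L ∧ suppLen K ≤ suppLen L
    · exact C.sym12 n M L K hn hM hL hK
        (top_core_tail C hn M L K hM hL hK (top_Q_swap12 L M K hQ) N hN zM zL zK h2.1 h2.2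
          (C.sym12 n _ _ _ hn hNL hNM hNK h))
    · have h3 : suppLen L ≤ suppLen K ∧ suppLen M ≤ suppLen K := by
        constructor <;> by_contra hc <;> omega
      exact C.sym23 n L K M hn hL hK hM
        (top_core_tail C hn L K M hL hK hM (top_Q_swap23 L M K hQ) N hN zL zK zM h3.1 h3.2
          (C.sym23 n _ _ _ hn hNL hNM hNK h))

end Claimed.Agent.R282
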